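import Claimed.Agent.R316.Pack023_2

/-!
# Row 316, Proposition 7.7: the INTERFACE between BP-S7-7a (helper248: charts, transitions, inverse branches) and BP-S7-7b (helper126: common exponent, jets, small balls, rate order, clock fields)

`PreCharts D` = the output of BP-S7-7a = the input of BP-S7-7b.  It consists of the fields of `ChartSystem 𝓜 g o` (`Top/S8.lean`) which do not involve `σ, c0, a0, b0, cγ, γ0, τ, q, Lam`, VERBATIM, and of two extra facts: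
* `Φ_unit`: unitary centre normalisation for the metric at clock `s` (`D.hs s = D.h (D.tOf s)`);
* `f_local`: the local exponent (7.20).

* BP-S7-7a proves  `InitialData 𝓜 g → o ∈ 𝓜.carrier → D.Harnack → D.LocalCharts → D.ClockFacts → SimplyConn 𝓜 → Nonempty (PreCharts D)`.
* BP-S7-7b proves  `InitialData 𝓜 g → o ∈ 𝓜.carrier → StJointPositivity D → D.Harnack → D.ClockFacts → PshLiouville 𝓜 → PreCharts D → Nonempty (ChartSystem 𝓜 g o)` (`S7/Rate/Main.lean`).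
The first clock `s0` of the final `ChartSystem` is `max` of `P.s0` and of thresholds of `ClockFacts`; all fields are stable under raising `s0`.
-/

set_option autoImplicit false
open scoped ContDiff ComplexOrder Topology
open MeasureTheory Filter

namespace Claimed.Agent.R316

variable {V : Type} [NormedAddCommGroup V] [NormedSpace ℝ V] [MeasurableSpace V] [BorelSpace V]
variable {n : ℕ} {𝓜 : CMfd V (Fin n)} {g : HFam V (Fin n)} {o : V}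

/-- the part of Proposition 7.7 constructed by path lifting (charts.tex l. 925-1000). -/
structure PreCharts (D : FlowData 𝓜 g o) where
  r0 : ℝ
  r1 : ℝ
  Bst : ℝ
  s0 : ℝ
  C0 : ℝ
  r1_pos : 0 < r1
  r1_lt : r1 < r0
  s0_ge : 1 ≤ s0
  /-- the immersed charts -/
  Φ : ℝ → CE (Fin n) → V
  Φ_loc : ∀ s : ℝ, s0 ≤ s → IsLocBihol 𝓜 (Φ s) (Metric.ball 0 r0)
  Φ_zero : ∀ s : ℝ, s0 ≤ s → Φ s 0 = o
  /-- unitary centre derivative for the metric at clock `s` -/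
  Φ_unit : ∀ s : ℝ, s0 ≤ s → D.hs s (Φ s) 0 = 1
  /-- the transition maps `F_{s,u} = Φ_u⁻¹ Φ_s`, `s0 ≤ s ≤ u` -/
  F : ℝ → ℝ → CE (Fin n) → CE (Fin n)
  F_hol : ∀ s u : ℝ, s0 ≤ s → s ≤ u → DifferentiableOn ℂ (F s u) (Metric.ball 0 r1)
  F_bdd : ∀ s u : ℝ, s0 ≤ s → s ≤ u → ∀ z ∈ Metric.ball (0 : CE (Fin n)) r1, ‖F s u z‖ ≤ Bst
  F_zero : ∀ s u : ℝ, s0 ≤ s → s ≤ u → F s u 0 = 0
  F_nonsing : ∀ s u : ℝ, s0 ≤ s → s ≤ u → ∀ z ∈ Metric.ball (0 : CE (Fin n)) r1, (jac (F s u) z).det ≠ 0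
  F_refl : ∀ s : ℝ, s0 ≤ s → Set.EqOn (F s s) id (Metric.ball 0 r1)
  F_comp : ∀ s u w : ℝ, s0 ≤ s → s ≤ u → u ≤ w → ∀ᶠ z in 𝓝 (0 : CE (Fin n)), F s w z = F u w (F s u z)
  F_norm : ∀ s u : ℝ, s0 ≤ s → s ≤ u → ‖fderiv ℂ (F s u) 0‖ ≤ 1
  F_det : ∀ s u : ℝ, s0 ≤ s → s ≤ u → ‖(jac (F s u) 0).det‖ = Real.exp (-((u - s) / 2))
  F_maps : ∀ s u : ℝ, s0 ≤ s → s ≤ u → Set.MapsTo (F s u) (Metric.ball 0 r1) (Metric.ball 0 r0)
  Φ_F : ∀ s u : ℝ, s0 ≤ s → s ≤ u → ∀ z ∈ Metric.ball (0 : CE (Fin n)) r1, Φ u (F s u z) = Φ s z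
  g_bound : ∀ K : Set V, IsCompact K → K ⊆ 𝓜.carrier → ∃ sK : ℝ, ∀ s : ℝ, sK ≤ s →
    ∀ z ∈ Metric.ball (0 : CE (Fin n)) r0, Φ s z ∈ K → leM (g (Φ s) z) (cI (C0 * Real.exp (2 * s)))
  Dom : ℝ → Set V
  Dom_open : ∀ s : ℝ, IsOpen (Dom s)
  Dom_exh : ∀ K : Set V, IsCompact K → K ⊆ 𝓜.carrier → ∃ sK : ℝ, ∀ s : ℝ, sK ≤ s → K ⊆ Dom s
  f : ℝ → V → CE (Fin n)
  f_hol : ∀ s : ℝ, s0 ≤ s → 𝓜.HolTo (Dom s) (f s)
  f_maps : ∀ s : ℝ, s0 ≤ s → ∀ x ∈ 𝓜.carrier ∩ Dom s, f s x ∈ Metric.ball (0 : CE (Fin n)) r0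
  Φ_f : ∀ s : ℝ, s0 ≤ s → ∀ x ∈ 𝓜.carrier ∩ Dom s, Φ s (f s x) = x
  o_mem : ∀ s : ℝ, s0 ≤ s → o ∈ Dom s
  f_o : ∀ s : ℝ, s0 ≤ s → f s o = 0
  f_coh : ∀ K : Set V, IsCompact K → K ⊆ 𝓜.carrier → ∃ sK : ℝ, ∀ s u : ℝ, sK ≤ s → s ≤ u → ∀ x ∈ K,
    f s x ∈ Metric.ball (0 : CE (Fin n)) r1 ∧ f u x = F s u (f s x)
  /-- (7.20) the local exponent -/
  f_local : ∀ K : Set V, IsCompact K → K ⊆ 𝓜.carrier → ∃ C a sK : ℝ, 0 < a ∧ ∀ s : ℝ, sK ≤ s → ∀ x ∈ K,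
    ‖f s x‖ ≤ C * Real.exp (-(a * s))

end Claimed.Agent.R316

/-!
# Row 316, BP-S7-7b: the clock fields `τ`, `q`, `Lam` of `TransSystem`; pull-back of forms by the transitions

No `sorry` in this file.  Input: `S7/Trans/Clock.lean`, `S7/Trans/Local.lean` (helper248): `tr7_tOf_pos`, `tr7_tOf_strictMonoOn`, `Tr7Lift.pull`.
-/

set_option autoImplicit false
set_option linter.unusedSectionVars false
open scoped ContDiff ComplexOrder Topology Matrix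
open MeasureTheory Filter

namespace Claimed.Agent.R316

variable {V : Type} [NormedAddCommGroup V] [NormedSpace ℝ V] [MeasurableSpace V] [BorelSpace V]
variable {n : ℕ} {𝓜 : CMfd V (Fin n)} {g : HFam V (Fin n)} {o : V}
variable (D : FlowData 𝓜 g o)

/-- logarithmic time of the clock value `s`. -/
noncomputable def r7tau (s : ℝ) : ℝ := Real.log (D.tOf s)

variable {D}

/-- the matrix of `t Ric(h_t)` at `o` in the coordinates `Φ_s`. -/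
noncomputable def r7Lam (P : PreCharts D) (s : ℝ) : Matrix (Fin n) (Fin n) ℂ :=
  ((D.tOf s : ℝ) : ℂ) • D.ric (D.tOf s) (P.Φ s) 0

variable {s u : ℝ}

theorem r7_tOf_pos (I : InitialData 𝓜 g) (ho : o ∈ 𝓜.carrier) (CF : D.ClockFacts) (hs : 0 < s) :
    0 < D.tOf s :=
  tr7_tOf_pos D I.kahler.toIsMetric ho CF hs

theorem r7_tau_mono (I : InitialData 𝓜 g) (ho : o ∈ 𝓜.carrier) (CF : D.ClockFacts) {s0 : ℝ}
    (hs0 : 1 ≤ s0) : StrictMonoOn (r7tau D) (Set.Ici s0) := by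
  intro a ha b hb hab
  have ha0 : 0 < a := by linarith [Set.mem_Ici.1 ha]
  exact Real.log_lt_log (r7_tOf_pos I ho CF ha0)
    (tr7_tOf_strictMonoOn D I.kahler.toIsMetric ho CF ha0.le (ha0.le.trans hab.le) hab)

theorem r7_exp_tau (I : InitialData 𝓜 g) (ho : o ∈ 𝓜.carrier) (CF : D.ClockFacts) (hs : 0 < s)
    (hu : 0 < u) : D.tOf u = D.tOf s * Real.exp (r7tau D u - r7tau D s) := by
  have h1 := r7_tOf_pos I ho CF hs
  have h2 := r7_tOf_pos I ho CF hu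
  rw [r7tau, r7tau, Real.exp_sub, Real.exp_log h1, Real.exp_log h2]
  field_simp

theorem PreCharts.r0_pos (P : PreCharts D) : 0 < P.r0 := P.r1_pos.trans P.r1_lt

theorem PreCharts.exists_hol (P : PreCharts D) (hs : P.s0 ≤ s) :
    ∃ U : Set (CE (Fin n)), U ⊆ Metric.ball 0 P.r0 ∧ (0 : CE (Fin n)) ∈ U ∧ 𝓜.IsHol (P.Φ s) U :=
  (P.Φ_loc s hs).2 0 (Metric.mem_ball_self P.r0_pos)

theorem r7_Lam_herm (I : InitialData 𝓜 g) (ho : o ∈ 𝓜.carrier) (CF : D.ClockFacts) (P : PreCharts D)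
    (hs : P.s0 ≤ s) : (r7Lam P s).IsHermitian := by
  obtain ⟨U, -, h0, hU⟩ := P.exists_hol hs
  have ht : 0 < D.tOf s := r7_tOf_pos I ho CF (by linarith [P.s0_ge])
  have h := (fc_ric_isHForm D ht.le).herm hU 0 h0
  unfold r7Lam
  rw [Matrix.IsHermitian, Matrix.conjTranspose_smul, h.eq]
  simp

theorem r7_Lam_trace (I : InitialData 𝓜 g) (ho : o ∈ 𝓜.carrier) (CF : D.ClockFacts) (P : PreCharts D)
    (hs : P.s0 ≤ s) : (r7Lam P s).trace = ((D.q s : ℝ) : ℂ) := by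
  obtain ⟨U, -, h0, hU⟩ := P.exists_hol hs
  have ht : 0 < D.tOf s := r7_tOf_pos I ho CF (by linarith [P.s0_ge])
  have hherm := (fc_ric_isHForm D ht.le).herm hU 0 h0
  have hR := fc_R_chart D hU ht.le h0
  have hunit : D.h (D.tOf s) (P.Φ s) 0 = 1 := P.Φ_unit s hs
  rw [P.Φ_zero s hs, Rc, hunit, inv_one, one_mul] at hR
  have him : (D.ric (D.tOf s) (P.Φ s) 0).trace.im = 0 := by
    have h1 : star (D.ric (D.tOf s) (P.Φ s) 0).trace = (D.ric (D.tOf s) (P.Φ s) 0).trace := by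
      rw [← Matrix.trace_conjTranspose, hherm.eq]
    have h2 := congrArg Complex.im h1
    simp only [Complex.star_def, Complex.conj_im] at h2
    linarith
  have htr : (D.ric (D.tOf s) (P.Φ s) 0).trace = ((D.R (D.tOf s) o : ℝ) : ℂ) := by
    apply Complex.ext
    · rw [hR, Complex.ofReal_re]
    · rw [him, Complex.ofReal_im]
  unfold r7Lam FlowData.q
  rw [Matrix.trace_smul, htr, smul_eq_mul, Complex.ofReal_mul]

theorem r7_Lam_lower (P : PreCharts D) {a0 b0 s₁ : ℝ}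
    (hric : ∀ s : ℝ, s₁ ≤ s → leFOn 𝓜 {o} (smulF (fun _ => b0 * D.q (a0 * s)) (D.hs s))
      (smulF (fun _ => D.tOf s) (D.ric (D.tOf s))))
    (hs : P.s0 ≤ s) (hs1 : s₁ ≤ s) : leM (cI (b0 * D.q (a0 * s))) (r7Lam P s) := by
  obtain ⟨U, -, h0, hU⟩ := P.exists_hol hs
  have h := hric s hs1 (P.Φ s) U hU 0 h0 (by simp [P.Φ_zero s hs])
  simp only [smulF] at h
  rw [P.Φ_unit s hs] at h
  exact h

/-- the transition `F_{s,u}` is a lift of `Φ_s` through `Φ_u`. -/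
theorem PreCharts.F_lift (P : PreCharts D) (hs : P.s0 ≤ s) (hsu : s ≤ u) :
    Tr7Lift (P.Φ u) (Metric.ball 0 P.r0) (P.Φ s) (Metric.ball 0 P.r1) (P.F s u) :=
  ⟨(P.F_hol s u hs hsu).continuousOn, P.F_maps s u hs hsu, P.Φ_F s u hs hsu⟩

theorem PreCharts.Φ_loc1 (P : PreCharts D) (hs : P.s0 ≤ s) :
    IsLocBihol 𝓜 (P.Φ s) (Metric.ball 0 P.r1) :=
  tr7_locBihol_mono (P.Φ_loc s hs) Metric.isOpen_ball (Metric.ball_subset_ball P.r1_lt.le)

theorem r7_pull_F (P : PreCharts D) {A : HFam V (Fin n)} (hA : IsHForm 𝓜 A) (hs : P.s0 ≤ s)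
    (hsu : s ≤ u) :
    A (P.Φ s) 0 = (jac (P.F s u) 0)ᴴ * A (P.Φ u) 0 * jac (P.F s u) 0 := by
  have h := (P.F_lift hs hsu).pull (P.Φ_loc u (hs.trans hsu)) (P.Φ_loc1 hs) hA
    (Metric.mem_ball_self P.r1_pos)
  rwa [P.F_zero s u hs hsu] at h

end Claimed.Agent.R316
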