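import Claimed.Agent.R316.S7.Rate.Clock
import Claimed.Agent.R316.Pack024
import Claimed.Agent.R316.Pack009

/-!
# Row 316, BP-S7-7b: the inner ball `B(e^{-2 s})` (charts.tex l. 1029-1047)

No `sorry` in this file.  Tools: `S7/Trans/{Local,AbsPath}.lean` (helper248): `Tr7Lift.path_bound`, `tr7_path_lift`, `Tr7Lift.eqOn`; `g0_pinch`, `g0_norm_equiv` (`Base/Metric/Local.lean`).

* `r7_seg_lift`: `Φ : ball 0 ρ → M` an embedded chart with `Φ^* H ≥ c`, `Ψ : A → M` an immersed chart with `Ψ^* H ≤ C` AT THE POINTS LYING OVER `Φ (ball 0 ρ)`, `Φ 0 = Ψ 0`, `[0, v] ⊆ A`, `√(C/c) |v| < ρ`.  Then `Ψ v ∈ Φ (ball 0 ρ)` (first exit argument = path lifting with an a priori bound).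
* `r7_inner_maps`: `K₀ = Ψ₀ (closedBall 0 ρ)` for a fixed chart `Ψ₀` at `o`; `Φ_s (ball 0 e^{-2 s}) ⊆ K₀` for late `s`, by `P.g_bound K₀`.
* `r7_inner_eq`: `f_u ∘ Φ_s` and `F_{s,u}` are two lifts of `Φ_s` through `Φ_u` on the ball, equal at `0`.
* `r7_inner_bound`: (7.21).
-/

set_option autoImplicit false
set_option linter.unusedSectionVars false
open scoped ContDiff ComplexOrder Topology
open MeasureTheory Filter

namespace Claimed.Agent.R316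

section seg

open scoped unitInterval

variable {V : Type} [NormedAddCommGroup V] [NormedSpace ℝ V]
variable {ι : Type} [Fintype ι] [DecidableEq ι]
variable {𝓜 : CMfd V ι} {Φ Ψ : CE ι → V}

/-- first exit argument along a segment. -/
theorem r7_seg_lift {H : HFam V ι} (hH : IsHForm 𝓜 H) {ρ c C : ℝ} {A : Set (CE ι)}
    (hΦ : 𝓜.IsHol Φ (Metric.ball 0 ρ)) (hΨ : IsLocBihol 𝓜 Ψ A) (hc : 0 < c)
    (hlow : ∀ w ∈ Metric.ball (0 : CE ι) ρ, leM (cI c) (H Φ w))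
    (hup : ∀ z ∈ A, Ψ z ∈ Φ '' Metric.ball 0 ρ → leM (H Ψ z) (cI C))
    {v : CE ι} (hseg : ∀ t ∈ Set.Icc (0 : ℝ) 1, t • v ∈ A) (h0 : Φ 0 = Ψ 0)
    (hsmall : Real.sqrt (C / c) * ‖v‖ < ρ) : Ψ v ∈ Φ '' Metric.ball 0 ρ := by
  classical
  set L := Real.sqrt (C / c) with hL
  have hL0 : 0 ≤ L := Real.sqrt_nonneg _
  have hρ : 0 < ρ := lt_of_le_of_lt (mul_nonneg hL0 (norm_nonneg _)) hsmall
  have hΦl : IsLocBihol 𝓜 Φ (Metric.ball 0 ρ) := tr7_locBihol_of_isHol hΦ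
  obtain ⟨O, hO, hOeq⟩ := (𝓜.isParam hΦ).exists_isOpen_image Metric.isOpen_ball subset_rfl
  -- the part of `A` over the chart
  set A' : Set (CE ι) := A ∩ Ψ ⁻¹' O with hA'
  have hA'o : IsOpen A' := (tr7_continuousOn hΨ).isOpen_inter_preimage hΨ.1 hO
  have hΨ' : IsLocBihol 𝓜 Ψ A' := tr7_locBihol_mono hΨ hA'o Set.inter_subset_left
  have hup' : ∀ z ∈ A', leM (H Ψ z) (cI C) := fun z hz =>
    hup z hz.1 (hOeq ▸ ⟨tr7_mem_carrier hΨ hz.1, hz.2⟩)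
  have hp : IsLocalHomeomorph (tr7_sub hΦl) := tr7_sub_isLocalHomeomorph hΦl
  let e0 : Metric.ball (0 : CE ι) ρ := ⟨0, Metric.mem_ball_self hρ⟩
  let γ : C(I, 𝓜.carrier) :=
    ⟨fun t => ⟨Ψ ((t : ℝ) • v), tr7_mem_carrier hΨ (hseg _ t.2)⟩,
      Continuous.subtype_mk ((tr7_continuousOn hΨ).comp_continuous (by fun_prop)
        (fun t => hseg _ t.2)) _⟩
  let Cc : Set (Metric.ball (0 : CE ι) ρ) := {e | ‖(e : CE ι)‖ ≤ L * ‖v‖}
  have hCc : IsCompact Cc := by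
    rw [Topology.IsEmbedding.subtypeVal.isCompact_iff]
    have : Subtype.val '' Cc = Metric.closedBall (0 : CE ι) (L * ‖v‖) := by
      ext x
      constructor
      · rintro ⟨e, he, rfl⟩
        exact mem_closedBall_zero_iff.2 he
      · intro hx
        rw [mem_closedBall_zero_iff] at hx
        exact ⟨⟨x, mem_ball_zero_iff.2 (hx.trans_lt hsmall)⟩, hx, rfl⟩
    rw [this]
    exact isCompact_closedBall _ _
  obtain ⟨Γ, -, hΓ⟩ : ∃ Γ : C(I, Metric.ball (0 : CE ι) ρ), Γ 0 = e0 ∧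
      ∀ t, tr7_sub hΦl (Γ t) = γ t := by
    refine tr7_path_lift hp γ e0 ?_ Cc hCc ?_
    · apply Subtype.ext
      show Φ 0 = Ψ (((0 : I) : ℝ) • v)
      simp [h0]
    · intro τ Γ hΓc hΓ0 hΓl t ht
      have hproj : ∀ x ∈ Set.Icc (0 : ℝ) τ, ∃ hx : x ∈ Set.Icc (0 : ℝ) 1,
          Set.projIcc (0 : ℝ) 1 zero_le_one x = ⟨x, hx⟩ := fun x hx =>
        ⟨⟨hx.1, hx.2.trans τ.2.2⟩, Set.projIcc_of_mem _ ⟨hx.1, hx.2.trans τ.2.2⟩⟩
      have hlift : Tr7Lift Φ (Metric.ball 0 ρ) (fun x : ℝ => Ψ (0 + x • v))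
          (Set.Icc 0 τ) (fun x => (Γ (Set.projIcc (0 : ℝ) 1 zero_le_one x) : CE ι)) := by
        refine ⟨continuous_subtype_val.comp_continuousOn
          (hΓc.comp continuous_projIcc.continuousOn ?_), fun x _ => (Γ _).2, ?_⟩
        · intro x hx
          obtain ⟨hx1, hx2⟩ := hproj x hx
          rw [hx2]
          exact hx.2
        · intro x hx
          obtain ⟨hx1, hx2⟩ := hproj x hx
          have := congrArg Subtype.val (hΓl ⟨x, hx1⟩ hx.2)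
          rw [hx2, zero_add]
          exact this
      have hseg' : ∀ x ∈ Set.Icc (0 : ℝ) τ, (0 : CE ι) + x • v ∈ A' := by
        intro x hx
        obtain ⟨hx1, hx2⟩ := hproj x hx
        have h1 := hlift.eq x hx
        have h2 : Ψ (0 + x • v) ∈ 𝓜.carrier ∩ O := by
          rw [← hOeq, ← h1]
          exact ⟨_, hlift.maps hx, rfl⟩
        rw [zero_add] at h2 ⊢
        exact ⟨hseg x hx1, h2.2⟩
      have hb := hlift.path_bound hΦl hΨ' hH hc hlow hup' hseg' t ⟨t.2.1, ht⟩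
      have e1 : Set.projIcc (0 : ℝ) 1 zero_le_one (t : ℝ) = t := Set.projIcc_val _ t
      have e2 : Set.projIcc (0 : ℝ) 1 zero_le_one (0 : ℝ) = 0 := Set.projIcc_left _
      simp only [e1, e2, hΓ0] at hb
      show ‖(Γ t : CE ι)‖ ≤ L * ‖v‖
      have h3 : L * ‖v‖ * t ≤ L * ‖v‖ * 1 :=
        mul_le_mul_of_nonneg_left t.2.2 (mul_nonneg hL0 (norm_nonneg _))
      have h4 : ‖(Γ t : CE ι) - 0‖ ≤ L * ‖v‖ * t := hb
      rw [sub_zero] at h4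
      linarith
  have h1 := congrArg Subtype.val (hΓ 1)
  have h2 : Φ (Γ 1 : CE ι) = Ψ (((1 : I) : ℝ) • v) := h1
  rw [Set.Icc.coe_one, one_smul] at h2
  exact ⟨_, (Γ 1).2, h2⟩

end seg

variable {V : Type} [NormedAddCommGroup V] [NormedSpace ℝ V] [FiniteDimensional ℝ V]
variable [MeasurableSpace V] [BorelSpace V]
variable {n : ℕ} {𝓜 : CMfd V (Fin n)} {g : HFam V (Fin n)} {o : V} {D : FlowData 𝓜 g o}

theorem r7_inner_maps (I : InitialData 𝓜 g) (ho : o ∈ 𝓜.carrier) (P : PreCharts D) :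
    ∃ K₀ : Set V, IsCompact K₀ ∧ K₀ ⊆ 𝓜.carrier ∧ ∃ s₁ : ℝ, P.s0 ≤ s₁ ∧ ∀ s : ℝ, s₁ ≤ s →
      Real.exp (-(2 * s)) ≤ P.r1 ∧
      ∀ z ∈ Metric.ball (0 : CE (Fin n)) (Real.exp (-(2 * s))), P.Φ s z ∈ K₀ := by
  have hg : IsMetric 𝓜 g := I.kahler.toIsMetric
  obtain ⟨Ψ, r, hr, hΨ, hΨ0⟩ := 𝓜.exists_centred ho
  have h0r : (0 : CE (Fin n)) ∈ Metric.ball (0 : CE (Fin n)) r := Metric.mem_ball_self hr
  obtain ⟨ρ, hρ, hρsub, hpinch⟩ := g0_pinch hg hΨ h0r (ε := 1 / 2) (by norm_num)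
  obtain ⟨c₀, _, hc₀, _, hequiv⟩ := g0_norm_equiv (hg.posDef hΨ 0 h0r)
  have hbsub : Metric.ball (0 : CE (Fin n)) ρ ⊆ Metric.ball 0 r :=
    Metric.ball_subset_closedBall.trans hρsub
  have hΨρ : 𝓜.IsHol Ψ (Metric.ball 0 ρ) := 𝓜.isHol_mono hΨ Metric.isOpen_ball hbsub
  set c : ℝ := c₀ ^ 2 / 2 with hc
  have hcpos : 0 < c := by positivity
  have hlow : ∀ w ∈ Metric.ball (0 : CE (Fin n)) ρ, leM (cI c) (g Ψ w) := by
    intro w hw
    refine (posSemidef_sub_iff_qf (isHermitian_smul_real _ Matrix.isHermitian_one)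
      (hg.herm hΨ w (hbsub hw))).2 fun v => ?_
    rw [qf_smul]
    have h1 := (hpinch w (Metric.ball_subset_closedBall hw) (WithLp.toLp 2 v)).1
    have h2 := (hequiv (WithLp.toLp 2 v)).1
    have h3 : 0 ≤ qf (g Ψ 0) v := qf_nonneg (hg.posDef hΨ 0 h0r).posSemidef _
    have h4 : (c₀ * ‖(WithLp.toLp 2 v : CE (Fin n))‖) ^ 2 ≤ qf (g Ψ 0) v := by
      calc (c₀ * ‖(WithLp.toLp 2 v : CE (Fin n))‖) ^ 2
          ≤ Real.sqrt (qf (g Ψ 0) v) ^ 2 := pow_le_pow_left₀ (by positivity) h2 2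
        _ = qf (g Ψ 0) v := Real.sq_sqrt h3
    have h5 : ‖(WithLp.toLp 2 v : CE (Fin n))‖ ^ 2 = qf (1 : Matrix (Fin n) (Fin n) ℂ) v :=
      tr7_norm_sq_eq_qf_one _
    have h6 : (1 - 1 / 2 : ℝ) * qf (g Ψ 0) v ≤ qf (g Ψ w) v := h1
    rw [← h5]
    nlinarith
  set K₀ : Set V := Ψ '' Metric.closedBall 0 ρ with hK₀
  have hK₀c : IsCompact K₀ :=
    (isCompact_closedBall _ _).image_of_continuousOn ((𝓜.isParam hΨ).continuousOn.mono hρsub)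
  have hK₀M : K₀ ⊆ 𝓜.carrier := by
    rintro _ ⟨z, hz, rfl⟩
    exact CMfd.mem_carrier hΨ (hρsub hz)
  obtain ⟨sK, hsK⟩ := P.g_bound K₀ hK₀c hK₀M
  have hlim1 : Tendsto (fun s : ℝ => Real.sqrt (P.C0 / c) * Real.exp (-s)) atTop (𝓝 0) := by
    simpa using Real.tendsto_exp_neg_atTop_nhds_zero.const_mul (Real.sqrt (P.C0 / c))
  have hlim2 : Tendsto (fun s : ℝ => Real.exp (-(2 * s))) atTop (𝓝 0) :=
    Real.tendsto_exp_neg_atTop_nhds_zero.comp (tendsto_id.const_mul_atTop two_pos)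
  obtain ⟨s₃, hs₃⟩ := eventually_atTop.1
    ((hlim1.eventually (gt_mem_nhds hρ)).and (hlim2.eventually (gt_mem_nhds P.r1_pos)))
  refine ⟨K₀, hK₀c, hK₀M, max (max sK P.s0) s₃, (le_max_right _ _).trans (le_max_left _ _),
    fun s hs => ?_⟩
  have hs1 : sK ≤ s := ((le_max_left _ _).trans (le_max_left _ _)).trans hs
  have hs2 : P.s0 ≤ s := ((le_max_right _ _).trans (le_max_left _ _)).trans hs
  obtain ⟨hs4, hs5⟩ := hs₃ s ((le_max_right _ _).trans hs)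
  refine ⟨hs5.le, fun z hz => ?_⟩
  rw [mem_ball_zero_iff] at hz
  have hsq : Real.sqrt (P.C0 * Real.exp (2 * s) / c) = Real.sqrt (P.C0 / c) * Real.exp s := by
    have e1 : P.C0 * Real.exp (2 * s) / c = P.C0 / c * (Real.exp s) ^ 2 := by
      rw [← Real.exp_nat_mul]
      push_cast
      ring
    rw [e1, Real.sqrt_mul' _ (sq_nonneg _), Real.sqrt_sq (Real.exp_pos _).le]
  have hmem := r7_seg_lift (Φ := Ψ) (Ψ := P.Φ s) (A := Metric.ball 0 P.r0) (v := z)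
    (C := P.C0 * Real.exp (2 * s)) hg.toIsHForm hΨρ (P.Φ_loc s hs2) hcpos hlow ?_ ?_ ?_ ?_
  · exact Set.image_mono Metric.ball_subset_closedBall hmem
  · intro w hw hwK
    exact hsK s hs1 w hw (Set.image_mono Metric.ball_subset_closedBall hwK)
  · intro t ht
    rw [mem_ball_zero_iff, norm_smul, Real.norm_eq_abs, abs_of_nonneg ht.1]
    have : t * ‖z‖ ≤ 1 * ‖z‖ := mul_le_mul_of_nonneg_right ht.2 (norm_nonneg _)
    linarith [P.r1_lt]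
  · rw [hΨ0, P.Φ_zero s hs2]
  · rw [hsq]
    have h1 : Real.sqrt (P.C0 / c) * Real.exp s * ‖z‖
        ≤ Real.sqrt (P.C0 / c) * Real.exp s * Real.exp (-(2 * s)) :=
      mul_le_mul_of_nonneg_left hz.le (mul_nonneg (Real.sqrt_nonneg _) (Real.exp_pos _).le)
    have h2 : Real.sqrt (P.C0 / c) * Real.exp s * Real.exp (-(2 * s))
        = Real.sqrt (P.C0 / c) * Real.exp (-s) := by
      rw [mul_assoc, ← Real.exp_add]
      congr 2
      ring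
    linarith

theorem r7_inner_eq (I : InitialData 𝓜 g) (ho : o ∈ 𝓜.carrier) (P : PreCharts D) :
    ∃ K₀ : Set V, IsCompact K₀ ∧ K₀ ⊆ 𝓜.carrier ∧ ∃ s₁ : ℝ, P.s0 ≤ s₁ ∧ ∀ s u : ℝ, s₁ ≤ s → s ≤ u →
      Real.exp (-(2 * s)) ≤ P.r1 ∧
      ∀ z ∈ Metric.ball (0 : CE (Fin n)) (Real.exp (-(2 * s))),
        P.Φ s z ∈ K₀ ∧ P.F s u z = P.f u (P.Φ s z) := by
  obtain ⟨K₀, hK₀c, hK₀M, s₁, hs₁, hmaps⟩ := r7_inner_maps I ho P
  obtain ⟨sD, hsD⟩ := P.Dom_exh K₀ hK₀c hK₀M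
  refine ⟨K₀, hK₀c, hK₀M, max s₁ sD, hs₁.trans (le_max_left _ _), fun s u hs hsu => ?_⟩
  have hs1 : s₁ ≤ s := (le_max_left _ _).trans hs
  have hs0 : P.s0 ≤ s := hs₁.trans hs1
  have hu0 : P.s0 ≤ u := hs0.trans hsu
  have huD : K₀ ⊆ P.Dom u := hsD u (((le_max_right _ _).trans hs).trans hsu)
  obtain ⟨hle, hin⟩ := hmaps s hs1
  refine ⟨hle, ?_⟩
  have hsub : Metric.ball (0 : CE (Fin n)) (Real.exp (-(2 * s))) ⊆ Metric.ball 0 P.r1 :=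
    Metric.ball_subset_ball hle
  have hmem : ∀ z ∈ Metric.ball (0 : CE (Fin n)) (Real.exp (-(2 * s))),
      P.Φ s z ∈ 𝓜.carrier ∩ P.Dom u := fun z hz => ⟨hK₀M (hin z hz), huD (hin z hz)⟩
  have l1 := (P.F_lift hs0 hsu).mono hsub
  have l2 : Tr7Lift (P.Φ u) (Metric.ball 0 P.r0) (P.Φ s)
      (Metric.ball 0 (Real.exp (-(2 * s)))) (fun z => P.f u (P.Φ s z)) := by
    refine ⟨fun z hz => ?_, fun z hz => P.f_maps u hu0 _ (hmem z hz),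
      fun z hz => P.Φ_f u hu0 _ (hmem z hz)⟩
    obtain ⟨U, -, hzU, hU⟩ := (P.Φ_loc1 hs0).2 z (hsub hz)
    have hd := P.f_hol u hu0 (P.Φ s) U hU
    have hop : IsOpen (U ∩ P.Φ s ⁻¹' P.Dom u) :=
      (𝓜.isParam hU).isOpen_inter_preimage (P.Dom_open u)
    exact ((hd z ⟨hzU, (hmem z hz).2⟩).differentiableAt
      (hop.mem_nhds ⟨hzU, (hmem z hz).2⟩)).continuousAt.continuousWithinAt
  have heq := Tr7Lift.eqOn (P.Φ_loc u hu0) l1 l2 (convex_ball _ _).isPreconnected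
    (Metric.mem_ball_self (Real.exp_pos _))
    (by rw [P.F_zero s u hs0 hsu, P.Φ_zero s hs0, P.f_o u hu0])
  exact fun z hz => ⟨hin z hz, heq hz⟩

/-- **(7.21)** -/
theorem r7_inner_bound (I : InitialData 𝓜 g) (ho : o ∈ 𝓜.carrier) (P : PreCharts D) {σ : ℝ}
    (hσ : ∀ K : Set V, IsCompact K → K ⊆ 𝓜.carrier → ∃ sK : ℝ, ∀ s : ℝ, sK ≤ s →
      ∀ x ∈ K, ‖P.f s x‖ ≤ Real.exp (-(σ * s))) :
    ∃ s₁ : ℝ, P.s0 ≤ s₁ ∧ ∀ s u : ℝ, s₁ ≤ s → s ≤ u → Real.exp (-(2 * s)) ≤ P.r1 ∧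
      ∀ z ∈ Metric.ball (0 : CE (Fin n)) (Real.exp (-(2 * s))),
        ‖P.F s u z‖ ≤ Real.exp (-(σ * u)) := by
  obtain ⟨K₀, hK₀c, hK₀M, s₁, hs₁, heq⟩ := r7_inner_eq I ho P
  obtain ⟨sK, hsK⟩ := hσ K₀ hK₀c hK₀M
  refine ⟨max s₁ sK, hs₁.trans (le_max_left _ _), fun s u hs hsu => ?_⟩
  obtain ⟨hle, h⟩ := heq s u ((le_max_left _ _).trans hs) hsu
  refine ⟨hle, fun z hz => ?_⟩
  obtain ⟨h1, h2⟩ := h z hz
  rw [h2]
  exact hsK u (((le_max_right _ _).trans hs).trans hsu) _ h1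

end Claimed.Agent.R316
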