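import Claimed.Agent.R316.B5.Hol
import Claimed.Agent.R316.Pack020_2

/-!
# Row 316, BP-S7-7b (sub-captain helper126): the cometric lies below the flat exponential interpolation of its end values; differentiation at both ends (dynamics.tex l. 199-235)

No `sorry` in this file.  External input: `b5_strip_max` (`B5/Hol.lean`), `b5_pshOnE_comp_curve_of_levi` (`B5/Comp.lean`), `StJointPositivity` (hypothesis), `fc_*` (`S7/H1/FlowChart.lean`), `hasDerivAt_qf` (`S7/H1/Propagate.lean`).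

Fixed: a holomorphic parametrisation `Φ` on `U`, `z ∈ U`, `t₀ > 0`, `T > 0`, `Vm` unitary, `μ : Fin n → ℝ`; `h x := D.h (t₀ e^x) Φ z`; `h 0 = 1`, `h T = Vm diag(e^{-μ T}) Vmᴴ`.

* `r7_strip`: maximum principle on a strip for a phase invariant compact family of subharmonic functions (corollary of `b5_strip_max`; replaces Phragmen-Lindeloef).
* `r7curve`: the entire curve `λ ↦ (z, ζ(λ), (log t₀ + λ)/2)`, `ζ_j(λ) = ∑ i, conj (Vm j i) conj (b i) e^{-μ i λ / 2}`; `jointNorm D.h Φ (r7curve … b λ) = qf ((D.h (t₀ e^{Re λ}) Φ z)⁻¹) (Vm *ᵥ β)`, `β i = b i e^{-μ i conj λ / 2}`.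
* `r7_interp_qf`: `r7_strip` on `S = closedBall 0 ‖b‖`.
* `r7_interp`: `h x ≥ Vm diag(e^{-μ x}) Vmᴴ` by `loewner_inv_anti`.
* `r7_rate_ends`: `ψ x = qf (h x) v - qf (Vm diag(e^{-μ x}) Vmᴴ) v ≥ 0` vanishes at both ends: one sided derivatives.
-/

set_option autoImplicit false
set_option linter.unusedSectionVars false
open scoped ContDiff ComplexOrder Topology Matrix ComplexConjugate

namespace Claimed.Agent.R316

theorem r7_strip {X : Type} [TopologicalSpace X] {S : Set X} (hS : IsCompact S) {T M : ℝ} (hT : 0 < T)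
    {φ : X → ℂ → ℝ}
    (hcont : ContinuousOn (fun p : X × ℝ => φ p.1 (p.2 : ℂ)) (S ×ˢ Set.Icc 0 T))
    (husc : ∀ a ∈ S, Continuous (φ a))
    (hsub : ∀ a ∈ S, PshOnE {l : ℂ | 0 < l.re ∧ l.re < T} (φ a))
    (hinv : ∀ a ∈ S, ∀ y : ℝ, ∃ a' ∈ S, ∀ x : ℝ, φ a ((x : ℂ) + (y : ℂ) * Complex.I) = φ a' (x : ℂ))
    (h0 : ∀ a ∈ S, φ a 0 ≤ M) (h1 : ∀ a ∈ S, φ a (T : ℂ) ≤ M) :
    ∀ a ∈ S, ∀ x ∈ Set.Icc 0 T, φ a (x : ℂ) ≤ M := by
  intro a ha x hx
  obtain ⟨C, hC⟩ := (hS.prod (isCompact_Icc (a := (0 : ℝ)) (b := T))).bddAbove_image hcont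
  have hred : ∀ w : ℂ, ∃ a' ∈ S, φ a w = φ a' (w.re : ℂ) := by
    intro w
    obtain ⟨a', ha', h⟩ := hinv a ha w.im
    exact ⟨a', ha', by rw [← h w.re, Complex.re_add_im]⟩
  refine b5_strip_max hT ((husc a ha).upperSemicontinuous.upperSemicontinuousOn _) (hsub a ha)
    (C := C) ?_ ?_ ?_ (x : ℂ) (by simpa using hx.1) (by simpa using hx.2)
  · intro w hw0 hwT
    obtain ⟨a', ha', h⟩ := hred w
    rw [h]
    exact hC ⟨(a', w.re), ⟨ha', hw0, hwT⟩, rfl⟩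
  · intro w hw
    obtain ⟨a', ha', h⟩ := hred w
    rw [h, hw]
    simpa using h0 a' ha'
  · intro w hw
    obtain ⟨a', ha', h⟩ := hred w
    rw [h, hw]
    exact h1 a' ha'

variable {V : Type} [NormedAddCommGroup V] [NormedSpace ℝ V] [MeasurableSpace V] [BorelSpace V]
variable {n : ℕ} {𝓜 : CMfd V (Fin n)} {g : HFam V (Fin n)} {o : V}
variable (D : FlowData 𝓜 g o)
variable {Φ : CE (Fin n) → V} {U : Set (CE (Fin n))} {z : CE (Fin n)} {t₀ T : ℝ}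
variable {Vm : Matrix (Fin n) (Fin n) ℂ} {μ : Fin n → ℝ}

/-- real diagonal matrix. -/
noncomputable def r7diag (d : Fin n → ℝ) : Matrix (Fin n) (Fin n) ℂ :=
  Matrix.diagonal fun i => ((d i : ℝ) : ℂ)

theorem r7diag_conjTranspose (d : Fin n → ℝ) : (r7diag d)ᴴ = r7diag d := by
  unfold r7diag
  rw [Matrix.diagonal_conjTranspose]
  congr 1
  ext i
  simp

theorem r7diag_mul (d e : Fin n → ℝ) : r7diag d * r7diag e = r7diag fun i => d i * e i := by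
  unfold r7diag
  rw [Matrix.diagonal_mul_diagonal]
  congr 1
  ext i
  simp

theorem r7diag_one : r7diag (fun _ : Fin n => (1 : ℝ)) = 1 := by
  unfold r7diag
  simp

theorem r7_unitary_left (hV : Vm ∈ Matrix.unitaryGroup (Fin n) ℂ) : Vmᴴ * Vm = 1 := by
  have := Matrix.mem_unitaryGroup_iff'.1 hV
  simpa [Matrix.star_eq_conjTranspose] using this

theorem r7_unitary_right (hV : Vm ∈ Matrix.unitaryGroup (Fin n) ℂ) : Vm * Vmᴴ = 1 := by
  have := Matrix.mem_unitaryGroup_iff.1 hV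
  simpa [Matrix.star_eq_conjTranspose] using this

theorem r7_conj_isHermitian (Vm : Matrix (Fin n) (Fin n) ℂ) (d : Fin n → ℝ) :
    (Vm * r7diag d * Vmᴴ).IsHermitian := by
  rw [Matrix.IsHermitian, Matrix.conjTranspose_mul, Matrix.conjTranspose_mul,
    Matrix.conjTranspose_conjTranspose, r7diag_conjTranspose, Matrix.mul_assoc]

theorem r7_conj_mul (hV : Vm ∈ Matrix.unitaryGroup (Fin n) ℂ) (d e : Fin n → ℝ) :
    (Vm * r7diag d * Vmᴴ) * (Vm * r7diag e * Vmᴴ) = Vm * r7diag (fun i => d i * e i) * Vmᴴ := by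
  calc (Vm * r7diag d * Vmᴴ) * (Vm * r7diag e * Vmᴴ)
      = Vm * r7diag d * (Vmᴴ * Vm) * r7diag e * Vmᴴ := by simp only [Matrix.mul_assoc]
    _ = Vm * (r7diag d * r7diag e) * Vmᴴ := by
        rw [r7_unitary_left hV]
        simp only [Matrix.mul_one, Matrix.mul_assoc]
    _ = _ := by rw [r7diag_mul]

/-- `qf (V Δ Vᴴ) v = ∑ d_i |(Vᴴ v)_i|²`. -/
theorem r7_qf_conj (Vm : Matrix (Fin n) (Fin n) ℂ) (d : Fin n → ℝ) (v : Fin n → ℂ) :
    qf (Vm * r7diag d * Vmᴴ) v = ∑ i, d i * ‖(Vmᴴ *ᵥ v) i‖ ^ 2 := by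
  have h := qf_conj Vmᴴ (r7diag d) v
  rw [Matrix.conjTranspose_conjTranspose] at h
  rw [h]
  exact qf_diagonal _ d

theorem r7_conj_inv (hV : Vm ∈ Matrix.unitaryGroup (Fin n) ℂ) (d : Fin n → ℝ) :
    (Vm * r7diag (fun i => Real.exp (d i)) * Vmᴴ)⁻¹ = Vm * r7diag (fun i => Real.exp (-(d i))) * Vmᴴ := by
  apply Matrix.inv_eq_right_inv
  rw [r7_conj_mul hV]
  have : (fun i => Real.exp (d i) * Real.exp (-(d i))) = fun _ : Fin n => (1 : ℝ) := by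
    ext i
    rw [← Real.exp_add, add_neg_cancel, Real.exp_zero]
  rw [this, r7diag_one, Matrix.mul_one, r7_unitary_right hV]

/-- the entire curve `λ ↦ (z, ζ(λ), (log t₀ + λ)/2)` in `U × ℂⁿ × ℂ`. -/
noncomputable def r7curve (z : CE (Fin n)) (t₀ : ℝ) (Vm : Matrix (Fin n) (Fin n) ℂ) (μ : Fin n → ℝ)
    (b : CE (Fin n)) (l : ℂ) : CE ((Fin n ⊕ Fin n) ⊕ Unit) :=
  WithLp.toLp 2 (Sum.elim (Sum.elim (fun j => z j)
    (fun j => ∑ i, conj (Vm j i) * conj (b i) * Complex.exp (-(μ i : ℂ) * l * (((1 : ℝ) / 2 : ℝ) : ℂ))))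
    (fun _ => (((Real.log t₀ : ℝ) : ℂ) + l) * (((1 : ℝ) / 2 : ℝ) : ℂ)))

theorem r7curve_pBase (z : CE (Fin n)) (t₀ : ℝ) (Vm : Matrix (Fin n) (Fin n) ℂ) (μ : Fin n → ℝ)
    (b : CE (Fin n)) (l : ℂ) : pBase (r7curve z t₀ Vm μ b l) = z := by
  ext j
  simp [pBase, r7curve]

theorem r7curve_continuous (z : CE (Fin n)) (t₀ : ℝ) (Vm : Matrix (Fin n) (Fin n) ℂ) (μ : Fin n → ℝ) :
    Continuous fun p : CE (Fin n) × ℂ => r7curve z t₀ Vm μ p.1 p.2 := by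
  unfold r7curve
  refine (PiLp.continuous_toLp 2 _).comp (continuous_pi fun idx => ?_)
  rcases idx with (j | j) | u
  · simp only [Sum.elim_inl]
    exact continuous_const
  · simp only [Sum.elim_inl, Sum.elim_inr]
    fun_prop
  · simp only [Sum.elim_inr]
    fun_prop

theorem r7curve_differentiable (z : CE (Fin n)) (t₀ : ℝ) (Vm : Matrix (Fin n) (Fin n) ℂ)
    (μ : Fin n → ℝ) (b : CE (Fin n)) : Differentiable ℂ (r7curve z t₀ Vm μ b) := by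
  rw [differentiable_euclidean]
  intro idx
  unfold r7curve
  rcases idx with (j | j) | u
  · simp only [Sum.elim_inl]
    exact differentiable_const _
  · simp only [Sum.elim_inl, Sum.elim_inr]
    fun_prop
  · simp only [Sum.elim_inr]
    fun_prop

theorem r7curve_jointNorm (ht₀ : 0 < t₀) (b : CE (Fin n)) (l : ℂ) :
    jointNorm D.h Φ (r7curve z t₀ Vm μ b l) = qf ((D.h (t₀ * Real.exp l.re) Φ z)⁻¹)
      (Vm *ᵥ fun i => b i * Complex.exp (-(μ i : ℂ) * conj l * (((1 : ℝ) / 2 : ℝ) : ℂ))) := by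
  unfold jointNorm
  rw [r7curve_pBase, qf_transpose]
  have e1 : Real.exp (2 * (pLog (r7curve z t₀ Vm μ b l)).re) = t₀ * Real.exp l.re := by
    have : (pLog (r7curve z t₀ Vm μ b l)).re = (Real.log t₀ + l.re) * (1 / 2) := by
      simp only [pLog, r7curve, Sum.elim_inr, Complex.re_mul_ofReal, Complex.add_re,
        Complex.ofReal_re]
    rw [this, show 2 * ((Real.log t₀ + l.re) * (1 / 2)) = Real.log t₀ + l.re by ring, Real.exp_add,
      Real.exp_log ht₀]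
  have e2 : star (pFib (r7curve z t₀ Vm μ b l))
      = Vm *ᵥ fun i => b i * Complex.exp (-(μ i : ℂ) * conj l * (((1 : ℝ) / 2 : ℝ) : ℂ)) := by
    ext j
    simp only [pFib, r7curve, Sum.elim_inl, Sum.elim_inr, Pi.star_apply, Matrix.mulVec, dotProduct,
      Complex.star_def, map_sum, map_mul, Complex.conj_conj, ← Complex.exp_conj, map_neg,
      Complex.conj_ofReal]
    refine Finset.sum_congr rfl fun i _ => ?_
    ring
  rw [e1, e2]

theorem r7_phi_real (ht₀ : 0 < t₀) (b : CE (Fin n)) (x : ℝ) :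
    jointNorm D.h Φ (r7curve z t₀ Vm μ b (x : ℂ)) = qf ((D.h (t₀ * Real.exp x) Φ z)⁻¹)
      (Vm *ᵥ fun i => ((Real.exp (-(μ i * x) / 2) : ℝ) : ℂ) * b i) := by
  rw [r7curve_jointNorm D ht₀, Complex.ofReal_re]
  congr 2
  ext i
  rw [Complex.conj_ofReal, mul_comm (b i)]
  congr 1
  rw [Complex.ofReal_exp]
  congr 1
  push_cast
  ring

theorem r7_norm_sq (b : CE (Fin n)) : ‖b‖ ^ 2 = ∑ i, ‖b i‖ ^ 2 := by
  rw [EuclideanSpace.norm_eq, Real.sq_sqrt (Finset.sum_nonneg fun _ _ => sq_nonneg _)]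

theorem r7curve_mem (hz : z ∈ U) (a : CE (Fin n)) (l : ℂ) :
    r7curve z t₀ Vm μ a l ∈ {p : CE ((Fin n ⊕ Fin n) ⊕ Unit) | pBase p ∈ U} := by
  show pBase _ ∈ U
  rw [r7curve_pBase]
  exact hz

theorem r7_phi_continuous (I : InitialData 𝓜 g) (hΦ : 𝓜.IsHol Φ U) (hz : z ∈ U) :
    Continuous fun p : CE (Fin n) × ℂ => jointNorm D.h Φ (r7curve z t₀ Vm μ p.1 p.2) :=
  (fc_jointNorm_contDiffOn D I.kahler.toIsMetric hΦ).continuousOn.comp_continuous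
    (r7curve_continuous z t₀ Vm μ) fun p => r7curve_mem hz p.1 p.2

theorem r7_phi_psh (I : InitialData 𝓜 g) (hJ : StJointPositivity D) (hΦ : 𝓜.IsHol Φ U)
    (hz : z ∈ U) (a : CE (Fin n)) :
    PshOnE {l : ℂ | 0 < l.re ∧ l.re < T} fun l => jointNorm D.h Φ (r7curve z t₀ Vm μ a l) :=
  b5_pshOnE_comp_curve_of_levi (fc_isOpen_pBase (CMfd.isOpen_dom hΦ))
    ((fc_jointNorm_contDiffOn D I.kahler.toIsMetric hΦ).of_le
      (WithTop.coe_le_coe.2 le_top))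
    (fun y hy => hJ Φ U hΦ y hy)
    ((isOpen_lt continuous_const Complex.continuous_re).inter
      (isOpen_lt Complex.continuous_re continuous_const))
    (r7curve_differentiable z t₀ Vm μ a).differentiableOn fun l _ => r7curve_mem hz a l

theorem r7_phi_phase (ht₀ : 0 < t₀) (a : CE (Fin n)) (x y : ℝ) :
    jointNorm D.h Φ (r7curve z t₀ Vm μ a ((x : ℂ) + (y : ℂ) * Complex.I))
      = jointNorm D.h Φ (r7curve z t₀ Vm μ
        (WithLp.toLp 2 fun i => a i * Complex.exp (((μ i * y / 2 : ℝ) : ℂ) * Complex.I)) (x : ℂ)) := by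
  rw [r7curve_jointNorm D ht₀, r7curve_jointNorm D ht₀]
  have e1 : ((x : ℂ) + (y : ℂ) * Complex.I).re = ((x : ℝ) : ℂ).re := by simp
  rw [e1]
  congr 2
  ext i
  show a i * _ = a i * _ * _
  rw [mul_assoc (a i), ← Complex.exp_add]
  congr 2
  simp only [map_add, map_mul, Complex.conj_ofReal, Complex.conj_I]
  push_cast
  ring

theorem r7_phase_norm (μ : Fin n → ℝ) (a : CE (Fin n)) (y : ℝ) :
    ‖(WithLp.toLp 2 fun i => a i * Complex.exp (((μ i * y / 2 : ℝ) : ℂ) * Complex.I) : CE (Fin n))‖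
      = ‖a‖ := by
  rw [EuclideanSpace.norm_eq, EuclideanSpace.norm_eq]
  congr 1
  refine Finset.sum_congr rfl fun i _ => ?_
  show ‖a i * _‖ ^ 2 = _
  rw [norm_mul, Complex.norm_exp_ofReal_mul_I, mul_one]

theorem r7_phi_zero (ht₀ : 0 < t₀) (hV : Vm ∈ Matrix.unitaryGroup (Fin n) ℂ)
    (h0 : D.h t₀ Φ z = 1) (a : CE (Fin n)) :
    jointNorm D.h Φ (r7curve z t₀ Vm μ a 0) = ‖a‖ ^ 2 := by
  have e := r7_phi_real D (Φ := Φ) (z := z) (Vm := Vm) (μ := μ) ht₀ a 0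
  rw [Complex.ofReal_zero] at e
  rw [e, Real.exp_zero, mul_one, h0, inv_one]
  have e2 : (fun i => ((Real.exp (-(μ i * 0) / 2) : ℝ) : ℂ) * a i) = fun i => a i := by
    ext i
    simp
  have e3 := qf_conj Vm (1 : Matrix (Fin n) (Fin n) ℂ) (fun i => a i)
  rw [Matrix.mul_one, r7_unitary_left hV] at e3
  rw [e2, ← e3, qf_one, ← r7_norm_sq]

theorem r7_phi_T (ht₀ : 0 < t₀) (hV : Vm ∈ Matrix.unitaryGroup (Fin n) ℂ)
    (h1 : D.h (t₀ * Real.exp T) Φ z = Vm * r7diag (fun i => Real.exp (-(μ i * T))) * Vmᴴ)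
    (a : CE (Fin n)) :
    jointNorm D.h Φ (r7curve z t₀ Vm μ a (T : ℂ)) = ‖a‖ ^ 2 := by
  rw [r7_phi_real D ht₀, h1, r7_conj_inv hV, r7_qf_conj, Matrix.mulVec_mulVec,
    r7_unitary_left hV, Matrix.one_mulVec, r7_norm_sq]
  refine Finset.sum_congr rfl fun i _ => ?_
  rw [norm_mul, mul_pow, Complex.norm_real, Real.norm_eq_abs, abs_of_pos (Real.exp_pos _),
    ← Real.exp_nat_mul, ← mul_assoc, ← Real.exp_add]
  have : -(-(μ i * T)) + ((2 : ℕ) : ℝ) * (-(μ i * T) / 2) = 0 := by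
    push_cast
    ring
  rw [this, Real.exp_zero, one_mul]

theorem r7_interp_qf (I : InitialData 𝓜 g) (hJ : StJointPositivity D) (hΦ : 𝓜.IsHol Φ U)
    (hz : z ∈ U) (ht₀ : 0 < t₀) (hT : 0 < T) (hV : Vm ∈ Matrix.unitaryGroup (Fin n) ℂ)
    (h0 : D.h t₀ Φ z = 1)
    (h1 : D.h (t₀ * Real.exp T) Φ z = Vm * r7diag (fun i => Real.exp (-(μ i * T))) * Vmᴴ) :
    ∀ x ∈ Set.Icc 0 T, ∀ b : Fin n → ℂ,
      qf ((D.h (t₀ * Real.exp x) Φ z)⁻¹)
        (Vm *ᵥ fun i => ((Real.exp (-(μ i * x) / 2) : ℝ) : ℂ) * b i) ≤ ∑ i, ‖b i‖ ^ 2 := by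
  intro x hx b
  have hcont := r7_phi_continuous D (t₀ := t₀) (Vm := Vm) (μ := μ) I hΦ hz
  have hpair : Continuous fun p : CE (Fin n) × ℝ => ((p.1, (p.2 : ℂ)) : CE (Fin n) × ℂ) :=
    continuous_fst.prodMk (Complex.continuous_ofReal.comp continuous_snd)
  have hle : ∀ a ∈ Metric.closedBall (0 : CE (Fin n)) ‖(WithLp.toLp 2 b : CE (Fin n))‖,
      ‖a‖ ^ 2 ≤ ‖(WithLp.toLp 2 b : CE (Fin n))‖ ^ 2 := fun a ha =>
    pow_le_pow_left₀ (norm_nonneg _) (mem_closedBall_zero_iff.1 ha) 2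
  have c1 : ContinuousOn (fun p : CE (Fin n) × ℝ =>
      jointNorm D.h Φ (r7curve z t₀ Vm μ p.1 (p.2 : ℂ)))
      (Metric.closedBall 0 ‖(WithLp.toLp 2 b : CE (Fin n))‖ ×ˢ Set.Icc 0 T) :=
    (hcont.comp hpair).continuousOn
  have c2 : ∀ a ∈ Metric.closedBall (0 : CE (Fin n)) ‖(WithLp.toLp 2 b : CE (Fin n))‖,
      Continuous fun l : ℂ => jointNorm D.h Φ (r7curve z t₀ Vm μ a l) := fun a _ => by
    have hp : Continuous fun l : ℂ => ((a, l) : CE (Fin n) × ℂ) :=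
      continuous_const.prodMk continuous_id
    have h := hcont.comp hp
    exact h
  have c3 : ∀ a ∈ Metric.closedBall (0 : CE (Fin n)) ‖(WithLp.toLp 2 b : CE (Fin n))‖, ∀ y : ℝ,
      ∃ a' ∈ Metric.closedBall (0 : CE (Fin n)) ‖(WithLp.toLp 2 b : CE (Fin n))‖, ∀ x : ℝ,
        jointNorm D.h Φ (r7curve z t₀ Vm μ a ((x : ℂ) + (y : ℂ) * Complex.I))
          = jointNorm D.h Φ (r7curve z t₀ Vm μ a' (x : ℂ)) := fun a ha y =>
    ⟨_, by
      rw [mem_closedBall_zero_iff, r7_phase_norm]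
      exact mem_closedBall_zero_iff.1 ha, fun x => r7_phi_phase D ht₀ a x y⟩
  have key := r7_strip (X := CE (Fin n))
    (S := Metric.closedBall 0 ‖(WithLp.toLp 2 b : CE (Fin n))‖)
    (M := ‖(WithLp.toLp 2 b : CE (Fin n))‖ ^ 2)
    (φ := fun a l => jointNorm D.h Φ (r7curve z t₀ Vm μ a l)) (isCompact_closedBall _ _) hT
    c1 c2 (fun a _ => r7_phi_psh D I hJ hΦ hz a) c3
    (fun a ha => (r7_phi_zero D ht₀ hV h0 a).le.trans (hle a ha))
    (fun a ha => (r7_phi_T D ht₀ hV h1 a).le.trans (hle a ha))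
    (WithLp.toLp 2 b) (mem_closedBall_zero_iff.2 le_rfl) x hx
  have key2 : jointNorm D.h Φ (r7curve z t₀ Vm μ (WithLp.toLp 2 b) (x : ℂ))
      ≤ ‖(WithLp.toLp 2 b : CE (Fin n))‖ ^ 2 := key
  rw [r7_phi_real D ht₀, r7_norm_sq] at key2
  exact key2

theorem r7_interp (I : InitialData 𝓜 g) (hJ : StJointPositivity D) (hΦ : 𝓜.IsHol Φ U)
    (hz : z ∈ U) (ht₀ : 0 < t₀) (hT : 0 < T) (hV : Vm ∈ Matrix.unitaryGroup (Fin n) ℂ)
    (h0 : D.h t₀ Φ z = 1)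
    (h1 : D.h (t₀ * Real.exp T) Φ z = Vm * r7diag (fun i => Real.exp (-(μ i * T))) * Vmᴴ) :
    ∀ x ∈ Set.Icc 0 T,
      leM (Vm * r7diag (fun i => Real.exp (-(μ i * x))) * Vmᴴ) (D.h (t₀ * Real.exp x) Φ z) := by
  intro x hx
  have htx : 0 ≤ t₀ * Real.exp x := (mul_pos ht₀ (Real.exp_pos _)).le
  have hpd : (D.h (t₀ * Real.exp x) Φ z).PosDef := fc_posDef D hΦ htx hz
  have hpdi : ((D.h (t₀ * Real.exp x) Φ z)⁻¹).PosDef := hpd.inv
  have key : (Vm * r7diag (fun i => Real.exp (μ i * x)) * Vmᴴ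
      - (D.h (t₀ * Real.exp x) Φ z)⁻¹).PosSemidef := by
    refine (posSemidef_sub_iff_qf hpdi.isHermitian (r7_conj_isHermitian _ _)).2 fun v => ?_
    have h := r7_interp_qf D I hJ hΦ hz ht₀ hT hV h0 h1 x hx
      (fun i => ((Real.exp (μ i * x / 2) : ℝ) : ℂ) * (Vmᴴ *ᵥ v) i)
    have e1 : (fun i => ((Real.exp (-(μ i * x) / 2) : ℝ) : ℂ) *
        (((Real.exp (μ i * x / 2) : ℝ) : ℂ) * (Vmᴴ *ᵥ v) i)) = Vmᴴ *ᵥ v := by
      ext i
      rw [← mul_assoc, ← Complex.ofReal_mul, ← Real.exp_add]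
      have : -(μ i * x) / 2 + μ i * x / 2 = 0 := by ring
      rw [this, Real.exp_zero, Complex.ofReal_one, one_mul]
    rw [e1, Matrix.mulVec_mulVec, r7_unitary_right hV, Matrix.one_mulVec] at h
    refine h.trans (le_of_eq ?_)
    rw [r7_qf_conj]
    refine Finset.sum_congr rfl fun i _ => ?_
    rw [norm_mul, mul_pow, Complex.norm_real, Real.norm_eq_abs, abs_of_pos (Real.exp_pos _),
      ← Real.exp_nat_mul]
    congr 2
    push_cast
    ring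
  have h2 := loewner_inv_anti hpdi key
  rw [Matrix.nonsing_inv_nonsing_inv _ ((Matrix.isUnit_iff_isUnit_det _).1 hpd.isUnit),
    r7_conj_inv hV] at h2
  exact h2


/-- `d/dx |v|²_{h(t₀ e^x)} = - t₀ e^x Ric(v, v)`. -/
theorem r7_hasDerivAt_h (I : InitialData 𝓜 g) (hΦ : 𝓜.IsHol Φ U) (hz : z ∈ U) (ht₀ : 0 < t₀)
    (v : Fin n → ℂ) (x : ℝ) :
    HasDerivAt (fun y => qf (D.h (t₀ * Real.exp y) Φ z) v)
      (-(qf (((t₀ * Real.exp x : ℝ) : ℂ) • D.ric (t₀ * Real.exp x) Φ z) v)) x := by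
  have hg : IsMetric 𝓜 g := I.kahler.toIsMetric
  have ht : 0 < t₀ * Real.exp x := mul_pos ht₀ (Real.exp_pos _)
  have h1 : HasDerivAt (fun s => qf (D.h s Φ z) v) (- qf (D.ric (t₀ * Real.exp x) Φ z) v)
      (t₀ * Real.exp x) := by
    have := hasDerivAt_qf (M := fun s => D.h s Φ z) (M' := - D.ric (t₀ * Real.exp x) Φ z)
      (y := fun _ => v) (y' := 0) (fun j k => fc_dt_h D hg hΦ ht hz j k)
      (fc_posDef D hΦ ht.le hz).isHermitian (fun j => hasDerivAt_const _ (v j))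
    rw [Matrix.mulVec_zero, dotProduct_zero, Complex.zero_re, mul_zero, add_zero, qf_neg] at this
    exact this
  have h2 : HasDerivAt (fun y => t₀ * Real.exp y) (t₀ * Real.exp x) x :=
    (Real.hasDerivAt_exp x).const_mul t₀
  have h3 := HasDerivAt.comp x h1 h2
  have e : -(qf (((t₀ * Real.exp x : ℝ) : ℂ) • D.ric (t₀ * Real.exp x) Φ z) v)
      = -qf (D.ric (t₀ * Real.exp x) Φ z) v * (t₀ * Real.exp x) := by
    rw [qf_smul]
    ring
  rw [e]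
  exact h3

theorem r7_hasDerivAt_flat (Vm : Matrix (Fin n) (Fin n) ℂ) (μ : Fin n → ℝ) (v : Fin n → ℂ) (x : ℝ) :
    HasDerivAt (fun y => qf (Vm * r7diag (fun i => Real.exp (-(μ i * y))) * Vmᴴ) v)
      (-(qf (Vm * r7diag (fun i => μ i * Real.exp (-(μ i * x))) * Vmᴴ) v)) x := by
  simp only [r7_qf_conj]
  rw [← Finset.sum_neg_distrib]
  refine HasDerivAt.fun_sum fun i _ => ?_
  have h1 : HasDerivAt (fun y => Real.exp (-(μ i * y))) (Real.exp (-(μ i * x)) * (-(μ i * 1))) x :=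
    (((hasDerivAt_id x).const_mul (μ i)).neg).exp
  have e : -(μ i * Real.exp (-(μ i * x)) * ‖(Vmᴴ *ᵥ v) i‖ ^ 2)
      = Real.exp (-(μ i * x)) * (-(μ i * 1)) * ‖(Vmᴴ *ᵥ v) i‖ ^ 2 := by ring
  rw [e]
  exact h1.mul_const (‖(Vmᴴ *ᵥ v) i‖ ^ 2)

theorem r7_rate_ends (I : InitialData 𝓜 g) (hΦ : 𝓜.IsHol Φ U) (hz : z ∈ U) (ht₀ : 0 < t₀)
    (hT : 0 < T) (hV : Vm ∈ Matrix.unitaryGroup (Fin n) ℂ) (h0 : D.h t₀ Φ z = 1)
    (h1 : D.h (t₀ * Real.exp T) Φ z = Vm * r7diag (fun i => Real.exp (-(μ i * T))) * Vmᴴ)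
    (hint : ∀ x ∈ Set.Icc 0 T,
      leM (Vm * r7diag (fun i => Real.exp (-(μ i * x))) * Vmᴴ) (D.h (t₀ * Real.exp x) Φ z)) :
    leM (((t₀ : ℝ) : ℂ) • D.ric t₀ Φ z) (Vm * r7diag μ * Vmᴴ) ∧
    leM (Vm * r7diag (fun i => μ i * Real.exp (-(μ i * T))) * Vmᴴ)
      (((t₀ * Real.exp T : ℝ) : ℂ) • D.ric (t₀ * Real.exp T) Φ z) := by
  have hric : ∀ x : ℝ, (((t₀ * Real.exp x : ℝ) : ℂ) • D.ric (t₀ * Real.exp x) Φ z).IsHermitian :=
    fun x => isHermitian_smul_real _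
      ((fc_ric_isHForm D (mul_pos ht₀ (Real.exp_pos x)).le).herm hΦ z hz)
  -- the difference
  set ψ : (Fin n → ℂ) → ℝ → ℝ := fun v y => qf (D.h (t₀ * Real.exp y) Φ z) v
    - qf (Vm * r7diag (fun i => Real.exp (-(μ i * y))) * Vmᴴ) v with hψ
  have hψd : ∀ v x, HasDerivAt (ψ v)
      (-(qf (((t₀ * Real.exp x : ℝ) : ℂ) • D.ric (t₀ * Real.exp x) Φ z) v)
        - -(qf (Vm * r7diag (fun i => μ i * Real.exp (-(μ i * x))) * Vmᴴ) v)) x :=
    fun v x => (r7_hasDerivAt_h D I hΦ hz ht₀ v x).sub (r7_hasDerivAt_flat Vm μ v x)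
  have hψ0 : ∀ v, ∀ x ∈ Set.Icc 0 T, 0 ≤ ψ v x := fun v x hx => sub_nonneg.2 (qf_mono (hint x hx) v)
  have hψa : ∀ v, ψ v 0 = 0 := by
    intro v
    simp only [hψ, Real.exp_zero, mul_one, mul_zero, neg_zero, h0, r7diag_one,
      r7_unitary_right hV, sub_self]
  have hψb : ∀ v, ψ v T = 0 := by
    intro v
    simp only [hψ, h1, sub_self]
  constructor
  · have e0 : (((t₀ : ℝ) : ℂ) • D.ric t₀ Φ z) = ((t₀ * Real.exp 0 : ℝ) : ℂ) • D.ric (t₀ * Real.exp 0) Φ z := by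
      rw [Real.exp_zero, mul_one]
    refine (posSemidef_sub_iff_qf (e0 ▸ hric 0) (r7_conj_isHermitian _ _)).2 fun v => ?_
    have hd := (hψd v 0).tendsto_slope_zero_right
    have hge : 0 ≤ -(qf (((t₀ * Real.exp 0 : ℝ) : ℂ) • D.ric (t₀ * Real.exp 0) Φ z) v)
        - -(qf (Vm * r7diag (fun i => μ i * Real.exp (-(μ i * 0))) * Vmᴴ) v) := by
      refine ge_of_tendsto hd ?_
      filter_upwards [Ioo_mem_nhdsGT hT] with t ht
      rw [zero_add, hψa, sub_zero, smul_eq_mul]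
      exact mul_nonneg (inv_nonneg.2 ht.1.le) (hψ0 v t ⟨ht.1.le, ht.2.le⟩)
    simp only [mul_zero, neg_zero, Real.exp_zero, mul_one] at hge
    linarith
  · refine (posSemidef_sub_iff_qf (r7_conj_isHermitian _ _) (hric T)).2 fun v => ?_
    have hd := (hψd v T).tendsto_slope_zero_left
    have hle : -(qf (((t₀ * Real.exp T : ℝ) : ℂ) • D.ric (t₀ * Real.exp T) Φ z) v)
        - -(qf (Vm * r7diag (fun i => μ i * Real.exp (-(μ i * T))) * Vmᴴ) v) ≤ 0 := by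
      refine le_of_tendsto hd ?_
      filter_upwards [Ioo_mem_nhdsLT (neg_lt_zero.2 hT)] with t ht
      rw [hψb, sub_zero, smul_eq_mul]
      exact mul_nonpos_of_nonpos_of_nonneg (inv_nonpos.2 ht.2.le)
        (hψ0 v (T + t) ⟨by linarith [ht.1], by linarith [ht.2]⟩)
    linarith

end Claimed.Agent.R316
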