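import Claimed.Agent.R316.S7.Rate.Clock
import Claimed.Agent.R316.S7.Rate.Interp
import Claimed.Agent.R316.Pack026_2
import Claimed.Agent.R316.S7.Rate.Inner

/-!
# Row 316, BP-S7-7b: the rate order (8.3) in the form of `TransSystem.rate_order` (matrix algebra; PROVED from `r7_interp`, `r7_rate_ends`, `r7_pull_F`)

`t₀ = D.tOf s`, `T = r7tau D u - r7tau D s > 0`, `t₁ = D.tOf u = t₀ e^T`, `L = jac (P.F s u) 0 = Wm E Vmᴴ`, `E = r7diag (e^{-μ T / 2})`.
`D.h t₁ (P.Φ s) 0 = Lᴴ L = Vm r7diag(e^{-μ T}) Vmᴴ`; `r7_interp`, `r7_rate_ends` give the first claim and `Vm r7diag(μ e^{-μ T}) Vmᴴ ≤ t₁ Ric_{t₁}` in the coordinates `Φ_s`, which is `Lᴴ (·) L` of the second claim.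
-/

set_option autoImplicit false
set_option linter.unusedSectionVars false
open scoped ContDiff ComplexOrder Topology Matrix

namespace Claimed.Agent.R316

variable {V : Type} [NormedAddCommGroup V] [NormedSpace ℝ V] [MeasurableSpace V] [BorelSpace V]
variable {n : ℕ} {𝓜 : CMfd V (Fin n)} {g : HFam V (Fin n)} {o : V} {D : FlowData 𝓜 g o}

/-- `(W E Vᴴ)ᴴ (W Δ Wᴴ) (W E Vᴴ) = V (E Δ E) Vᴴ` for unitary `W`. -/
theorem r7_conj_svd {Vm Wm : Matrix (Fin n) (Fin n) ℂ} (hW : Wm ∈ Matrix.unitaryGroup (Fin n) ℂ)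
    (e d : Fin n → ℝ) :
    (Wm * r7diag e * Vmᴴ)ᴴ * (Wm * r7diag d * Wmᴴ) * (Wm * r7diag e * Vmᴴ)
      = Vm * r7diag (fun i => d i * (e i * e i)) * Vmᴴ := by
  have hWW : Wmᴴ * Wm = 1 := by
    have := Matrix.mem_unitaryGroup_iff'.1 hW
    simpa [Matrix.star_eq_conjTranspose] using this
  have e1 : (Wm * r7diag e * Vmᴴ)ᴴ = Vm * r7diag e * Wmᴴ := by
    rw [Matrix.conjTranspose_mul, Matrix.conjTranspose_mul, Matrix.conjTranspose_conjTranspose,
      r7diag_conjTranspose, Matrix.mul_assoc]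
  rw [e1]
  calc Vm * r7diag e * Wmᴴ * (Wm * r7diag d * Wmᴴ) * (Wm * r7diag e * Vmᴴ)
      = Vm * r7diag e * (Wmᴴ * Wm) * r7diag d * (Wmᴴ * Wm) * r7diag e * Vmᴴ := by
        simp only [Matrix.mul_assoc]
    _ = Vm * (r7diag e * r7diag d * r7diag e) * Vmᴴ := by
        rw [hWW]
        simp only [Matrix.mul_one, Matrix.mul_assoc]
    _ = Vm * r7diag (fun i => d i * (e i * e i)) * Vmᴴ := by
        rw [r7diag_mul, r7diag_mul]
        congr 3
        ext i
        ring

theorem r7_rate_order (I : InitialData 𝓜 g) (ho : o ∈ 𝓜.carrier) (hJ : StJointPositivity D)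
    (CF : D.ClockFacts) (P : PreCharts D) {s u : ℝ} (hs : P.s0 ≤ s) (hsu : s < u)
    (Vm Wm : Matrix (Fin n) (Fin n) ℂ) (μ : Fin n → ℝ)
    (hV : Vm ∈ Matrix.unitaryGroup (Fin n) ℂ) (hW : Wm ∈ Matrix.unitaryGroup (Fin n) ℂ)
    (hL : jac (P.F s u) 0 =
      Wm * Matrix.diagonal (fun i => ((Real.exp (-(μ i * (r7tau D u - r7tau D s) / 2)) : ℝ) : ℂ)) *
        Vm.conjTranspose) :
    leM (r7Lam P s) (Vm * Matrix.diagonal (fun i => ((μ i : ℝ) : ℂ)) * Vm.conjTranspose) ∧
    leM (Wm * Matrix.diagonal (fun i => ((μ i : ℝ) : ℂ)) * Wm.conjTranspose) (r7Lam P u) := by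
  have hs0 : 0 < s := by linarith [P.s0_ge]
  have hu0 : 0 < u := hs0.trans hsu
  have hu : P.s0 ≤ u := hs.trans hsu.le
  have ht₀ : 0 < D.tOf s := r7_tOf_pos I ho CF hs0
  have ht₁ : 0 < D.tOf u := r7_tOf_pos I ho CF hu0
  set T : ℝ := r7tau D u - r7tau D s with hTdef
  have hT : 0 < T := sub_pos.2 (r7_tau_mono I ho CF P.s0_ge hs hu hsu)
  have htt : D.tOf s * Real.exp T = D.tOf u := (r7_exp_tau I ho CF hs0 hu0).symm
  set e : Fin n → ℝ := fun i => Real.exp (-(μ i * T / 2)) with he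
  have hL' : jac (P.F s u) 0 = Wm * r7diag e * Vmᴴ := hL
  have hee : ∀ i, e i * e i = Real.exp (-(μ i * T)) := by
    intro i
    rw [he, ← Real.exp_add]
    congr 1
    ring
  have hWW : Wm * Wmᴴ = 1 := by
    have := Matrix.mem_unitaryGroup_iff.1 hW
    simpa [Matrix.star_eq_conjTranspose] using this
  obtain ⟨U, -, h0U, hU⟩ := P.exists_hol hs
  have h0 : D.h (D.tOf s) (P.Φ s) 0 = 1 := P.Φ_unit s hs
  have h1 : D.h (D.tOf s * Real.exp T) (P.Φ s) 0
      = Vm * r7diag (fun i => Real.exp (-(μ i * T))) * Vmᴴ := by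
    rw [htt, r7_pull_F P (fc_metric D ht₁.le).toIsHForm hs hsu.le,
      show D.h (D.tOf u) (P.Φ u) 0 = 1 from P.Φ_unit u hu, hL']
    have := r7_conj_svd (Vm := Vm) hW e (fun _ => 1)
    have h11 : r7diag (fun _ : Fin n => (1 : ℝ)) = 1 := by
      unfold r7diag
      simp
    rw [h11, Matrix.mul_one, hWW] at this
    rw [this]
    congr 3
    ext i
    rw [one_mul, hee]
  have hint := r7_interp D I hJ hU h0U ht₀ hT hV h0 h1
  obtain ⟨hA, hB⟩ := r7_rate_ends D I hU h0U ht₀ hT hV h0 h1 hint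
  refine ⟨hA, ?_⟩
  have hdet : (jac (P.F s u) 0).det ≠ 0 :=
    P.F_nonsing s u hs hsu.le 0 (Metric.mem_ball_self P.r1_pos)
  unfold leM
  rw [← posSemidef_conj_iff hdet]
  have hpull := r7_pull_F P (fc_ric_isHForm D ht₁.le) hs hsu.le
  have e2 : (jac (P.F s u) 0)ᴴ * (r7Lam P u - Wm * r7diag μ * Wmᴴ) * jac (P.F s u) 0
      = ((D.tOf s * Real.exp T : ℝ) : ℂ) • D.ric (D.tOf s * Real.exp T) (P.Φ s) 0
        - Vm * r7diag (fun i => μ i * Real.exp (-(μ i * T))) * Vmᴴ := by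
    rw [Matrix.mul_sub, Matrix.sub_mul, htt, hpull]
    congr 1
    · unfold r7Lam
      rw [Matrix.mul_smul, Matrix.smul_mul]
    · rw [hL', r7_conj_svd hW e μ]
      congr 3
      ext i
      rw [hee]
  exact e2 ▸ hB

end Claimed.Agent.R316

/-!
# Row 316, BP-S7-7b: assembly of `ChartSystem` from `PreCharts` (glue, proved from the leaves)

* `r7_main`      : `PreCharts D → Nonempty (ChartSystem 𝓜 g o)`.
* `st77_of_pre`  : `St77 D` from the target of BP-S7-7a.
-/

set_option autoImplicit false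
set_option linter.unusedSectionVars false
open scoped ContDiff ComplexOrder Topology
open MeasureTheory Filter

namespace Claimed.Agent.R316

variable {V : Type} [NormedAddCommGroup V] [NormedSpace ℝ V] [FiniteDimensional ℝ V]
variable [MeasurableSpace V] [BorelSpace V]
variable {n : ℕ} {𝓜 : CMfd V (Fin n)} {g : HFam V (Fin n)} {o : V} {D : FlowData 𝓜 g o}

theorem r7_main (I : InitialData 𝓜 g) (ho : o ∈ 𝓜.carrier) (hJ : StJointPositivity D)
    (H : D.Harnack) (CF : D.ClockFacts) (PL : PshLiouville 𝓜) (P : PreCharts D) :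
    Nonempty (ChartSystem 𝓜 g o) := by
  obtain ⟨a0, b0, s₁, ha0, ha1, hb0, hric⟩ := CF.ric_lower
  obtain ⟨σ, hσ, hsmall⟩ := r7_common I ho PL P
  obtain ⟨s₂, hs₂, hinner⟩ := r7_inner_bound I ho P hsmall
  have hS : InnerSys P.F P.r1 P.Bst s₂ σ :=
    { r1_pos := P.r1_pos
      s₁_nonneg := by linarith [P.s0_ge]
      σ_pos := hσ
      hol := fun s u hs hsu => P.F_hol s u (hs₂.trans hs) hsu
      bdd := fun s u hs hsu => P.F_bdd s u (hs₂.trans hs) hsu
      inner := hinner }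
  have h0 : P.s0 ≤ max P.s0 s₁ := le_max_left _ _
  have h1 : s₁ ≤ max P.s0 s₁ := le_max_right _ _
  have hs0 : 1 ≤ max P.s0 s₁ := P.s0_ge.trans h0
  have hpos : 0 < a0 * max P.s0 s₁ := by positivity
  exact ⟨
    { r1 := P.r1
      Bst := P.Bst
      s0 := max P.s0 s₁
      σ := σ
      c0 := D.q (a0 * max P.s0 s₁)
      a0 := a0
      b0 := b0
      cγ := σ / 8
      γ0 := 1
      r1_pos := P.r1_pos
      s0_ge := hs0
      σ_pos := hσ
      c0_pos := CF.q_pos _ hpos
      a0_pos := ha0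
      a0_lt := ha1
      b0_pos := hb0
      cγ_pos := by positivity
      γ0_pos := one_pos
      τ := r7tau D
      q := D.q
      Lam := r7Lam P
      τ_mono := r7_tau_mono I ho CF hs0
      q_mono := CF.q_mono
      q_ge := fun s hs => CF.q_mono (Set.mem_Ici.2 hpos.le) (Set.mem_Ici.2 (hpos.le.trans hs)) hs
      q_liminf := CF.q_liminf
      Lam_herm := fun s hs => r7_Lam_herm I ho CF P (h0.trans hs)
      Lam_trace := fun s hs => r7_Lam_trace I ho CF P (h0.trans hs)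
      Lam_lower := fun s hs => r7_Lam_lower P hric (h0.trans hs) (h1.trans hs)
      F := P.F
      F_hol := fun s u hs => P.F_hol s u (h0.trans hs)
      F_bdd := fun s u hs => P.F_bdd s u (h0.trans hs)
      F_zero := fun s u hs => P.F_zero s u (h0.trans hs)
      F_nonsing := fun s u hs => P.F_nonsing s u (h0.trans hs)
      F_refl := fun s hs => P.F_refl s (h0.trans hs)
      F_comp := fun s u w hs => P.F_comp s u w (h0.trans hs)
      F_norm := fun s u hs => P.F_norm s u (h0.trans hs)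
      F_det := fun s u hs => P.F_det s u (h0.trans hs)
      F_jets := hS.jets
      F_small := fun γ hγ hγ1 => hS.small γ hγ hγ1
      rate_order := fun s u hs hsu Vm Wm μ hV hW hL =>
        r7_rate_order I ho hJ CF P (h0.trans hs) hsu Vm Wm μ hV hW hL
      r0 := P.r0
      C0 := P.C0
      r1_lt := P.r1_lt
      Φ := P.Φ
      Φ_loc := fun s hs => P.Φ_loc s (h0.trans hs)
      Φ_zero := fun s hs => P.Φ_zero s (h0.trans hs)
      F_maps := fun s u hs => P.F_maps s u (h0.trans hs)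
      Φ_F := fun s u hs => P.Φ_F s u (h0.trans hs)
      g_bound := P.g_bound
      Dom := P.Dom
      Dom_open := P.Dom_open
      Dom_exh := P.Dom_exh
      f := P.f
      f_hol := fun s hs => P.f_hol s (h0.trans hs)
      f_maps := fun s hs => P.f_maps s (h0.trans hs)
      Φ_f := fun s hs => P.Φ_f s (h0.trans hs)
      o_mem := fun s hs => P.o_mem s (h0.trans hs)
      f_o := fun s hs => P.f_o s (h0.trans hs)
      f_coh := P.f_coh
      f_small := hsmall }⟩

/-- **Proposition 7.7** from the construction of BP-S7-7a. -/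
theorem st77_of_pre
    (hpre : InitialData 𝓜 g → o ∈ 𝓜.carrier → D.Harnack → D.LocalCharts → D.ClockFacts →
      SimplyConn 𝓜 → Nonempty (PreCharts D)) : St77 D := by
  intro I ho hJ H LC CF SC PL
  obtain ⟨P⟩ := hpre I ho H LC CF SC
  exact r7_main I ho hJ H CF PL P

end Claimed.Agent.R316
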